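import Crest.Agent.N067.M.Bas
import Crest.Agent.N067.Y.Out0
import Crest.Agent.N067.A.HKS

/-!
# Row 67, block P (helper53): `PotStmt`

Thick valid points are charged to their foot: `|B|` changes by `O(d² sup t)` along the normal.
-/

set_option autoImplicit false

open MeasureTheory Laplacian InnerProductSpace Topology Filter Set Metric
open scoped RealInnerProductSpace Gradient ContDiff ENNReal

namespace Crest.Agent.N067.P

open Crest.Agent.R077 Crest.Agent.N067.V Crest.Agent.N067.Y Crest.Agent.N067.M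

noncomputable section

variable {n : ℕ} {v : EE n → ℝ} {x y : EE n} {D : Dat n} {K lam κ0 C1 rs : ℝ} {β : Bo}

theorem Bn_sq (v : EE n → ℝ) (x : EE n) : Bn v x ^ 2 = hsq (dd v) x :=
  Real.sq_sqrt (hsq_nonneg _ _)

theorem norm_sub_ft (hv : Sol v) (x : EE n) : ‖x - ft v x‖ ≤ |dd v x| := by
  rw [ft, sub_sub_cancel, norm_smul, Real.norm_eq_abs]
  exact mul_le_of_le_one_right (abs_nonneg _) (NN_le_one hv x)

theorem norm_sub_ball (hv : Sol v) {r : ℝ} (hy : y ∈ ball (ft v x) r) :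
    ‖x - y‖ ≤ |dd v x| + r := by
  have h1 := norm_sub_le_norm_sub_add_norm_sub x (ft v x) y
  rw [mem_ball_iff_norm'] at hy
  linarith [norm_sub_ft hv x]

/-- level and Hessian at the foot -/
theorem foot_core {K a L : ℝ} (hK : 0 ≤ K) (hB : Ou.KB n K) (hv : Sol v) (a1 : a ≤ 1) (L1 : 1 ≤ L)
    (hL : |dd v x| ≤ L) (ha : ∀ y, ‖x - y‖ ≤ |dd v x| → √(tt v y) ≤ a) :
    |dd v (ft v x)| ≤ Ou.KK n K * L ^ 2 * a ∧
      hsq (dd v) x ≤ 2 * hsq (dd v) (ft v x) + 2 * (n * (Ou.KK n K * L ^ 2 * a ^ 2)) ^ 2 := by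
  obtain ⟨σ, hσ, e⟩ : ∃ σ : ℝ, (σ = 1 ∨ σ = -1) ∧ σ * |dd v x| = dd v x := by
    rcases le_total 0 (dd v x) with h | h
    · exact ⟨1, Or.inl rfl, by rw [abs_of_nonneg h, one_mul]⟩
    · exact ⟨-1, Or.inr rfl, by rw [abs_of_nonpos h]; ring⟩
  have s1 : |σ| = 1 := by rcases hσ with rfl | rfl <;> simp
  have s2 : σ * dd v x = |dd v x| := by
    rcases hσ with rfl | rfl <;> linarith
  obtain ⟨h1, h2⟩ := Ou.geo hK hB hv x hσ (abs_nonneg (dd v x)) hL L1 a1 (ha x (by simp))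
    fun r hr => ha _ (by
      rw [sub_add_cancel_left, norm_neg, norm_smul, norm_smul, norm_neg, Real.norm_eq_abs σ, s1,
        one_mul, Real.norm_of_nonneg hr.1]
      exact (mul_le_of_le_one_right hr.1 (hv.norm_grad_dd_le x)).trans hr.2.le)
  have e1 : x + |dd v x| • (-σ) • ∇ (dd v) x = ft v x := by
    rw [ft, nn, smul_smul, mul_neg, mul_comm, e, neg_smul, sub_eq_add_neg]
  rw [e1] at h1 h2
  rw [s2, add_sub_cancel_right, abs_mul, s1, one_mul] at h1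
  refine ⟨h1, ?_⟩
  obtain ⟨δ, hδ⟩ : ∃ δ, δ = Ou.KK n K * L ^ 2 * a ^ 2 := ⟨_, rfl⟩
  rw [← hδ] at h2 ⊢
  have h3 : ∀ i j, hs (dd v) i j x ^ 2 ≤ 2 * hs (dd v) i j (ft v x) ^ 2 + 2 * δ ^ 2 := fun i j => by
    have h4 := sq_le_sq' (abs_le.1 (h2 i j)).1 (abs_le.1 (h2 i j)).2
    nlinarith [sq_nonneg (2 * hs (dd v) i j (ft v x) - hs (dd v) i j x)]
  refine (Finset.sum_le_sum fun i _ => Finset.sum_le_sum fun j _ => h3 i j).trans_eq ?_
  simp only [hsq, Finset.sum_add_distrib, Finset.mul_sum, Finset.sum_const, Finset.card_univ,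
    Fintype.card_fin, nsmul_eq_mul]
  ring

theorem log_small (A C : ℝ) : ∃ M : ℝ, 1 ≤ M ∧ ∀ p : ℝ, 0 < p → p ≤ 1 / M →
    A * (1 + |C| * Real.log (1 / p)) ^ 2 * p ^ (9 / 10 : ℝ) ≤ 1 := by
  obtain ⟨E, hE⟩ : ∃ E, E = 1 + |A| * (1 + 10 * |C|) ^ 2 := ⟨_, rfl⟩
  have E1 : 1 ≤ E := by rw [hE]; exact le_add_of_nonneg_right (by positivity)
  refine ⟨E ^ 10, one_le_pow₀ E1, fun p hp h => ?_⟩
  obtain ⟨u, hu⟩ : ∃ u, u = (1 / p) ^ (1 / 10 : ℝ) := ⟨_, rfl⟩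
  have u10 : u ^ 10 = 1 / p := by
    rw [hu, ← Real.rpow_natCast, ← Real.rpow_mul (by positivity)]; norm_num
  have u0 : 0 < u := by rw [hu]; positivity
  have uE : E ≤ u := by
    refine le_of_pow_le_pow_left₀ (n := 10) (by norm_num) u0.le ?_
    rw [u10, le_one_div (by positivity) hp]; exact h
  have u1 : 1 ≤ u := E1.trans uE
  have h1 : Real.log (1 / p) ≤ 10 * u := by
    have := Real.log_le_rpow_div (x := 1 / p) (by positivity) (show (0 : ℝ) < 1 / 10 by norm_num)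
    rw [← hu] at this; linarith
  have h0 : 0 ≤ Real.log (1 / p) := Real.log_nonneg (u10 ▸ one_le_pow₀ u1)
  have h2 : p ^ (9 / 10 : ℝ) * u ^ 9 = 1 := by
    rw [hu, ← Real.rpow_natCast, ← Real.rpow_mul (by positivity), one_div, Real.inv_rpow hp.le]
    norm_num
    exact mul_inv_cancel₀ (by positivity)
  have h3 : (1 + |C| * Real.log (1 / p)) ^ 2 ≤ ((1 + 10 * |C|) * u) ^ 2 :=
    pow_le_pow_left₀ (by positivity) (by nlinarith [abs_nonneg C]) 2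
  have h4 : A * (1 + |C| * Real.log (1 / p)) ^ 2 ≤ u ^ 9 :=
    calc _ ≤ |A| * ((1 + 10 * |C|) * u) ^ 2 :=
          mul_le_mul (le_abs_self A) h3 (by positivity) (abs_nonneg A)
      _ = |A| * (1 + 10 * |C|) ^ 2 * u ^ 2 := by ring
      _ ≤ u * u ^ 2 := mul_le_mul_of_nonneg_right (by linarith) (by positivity)
      _ = u ^ 3 := by ring
      _ ≤ u ^ 9 := pow_le_pow_right₀ u1 (by norm_num)
  calc _ ≤ u ^ 9 * p ^ (9 / 10 : ℝ) := mul_le_mul_of_nonneg_right h4 (by positivity)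
    _ = 1 := by rw [mul_comm, h2]

/-- **the foot of a thick point** -/
theorem foot (n : ℕ) : ∃ A : ℝ, 1 ≤ A ∧ ∀ C2 ηt : ℝ, 0 < ηt → ∃ M : ℝ, 1 ≤ M ∧
    ∀ (v : EE n → ℝ) (x : EE n) (p : ℝ), Sol v → 0 < p → p ≤ 1 / M →
      |dd v x| ≤ C2 * Real.log (1 / p) → ηt * p ≤ Bn v x →
      (∀ y, ‖x - y‖ ≤ |dd v x| → tt v y ≤ p ^ (19 / 10 : ℝ)) →
      ∀ y ∈ ball (ft v x) (1 / 2), |dd v y| ≤ 1 ∧ hsq (dd v) x ≤ A * tt v y := by
  obtain ⟨K, hK, hB⟩ := Ou.exists_KB (hkS n)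
  obtain ⟨Q, hQ, h1⟩ := hk_hsq n
  obtain ⟨H, hH, h2⟩ := hk_har n
  have k0 : 0 ≤ Ou.KK n K := by unfold Ou.KK; positivity
  refine ⟨1 + 4 * Q * Real.exp H, le_add_of_nonneg_right (by positivity), fun C2 ηt hη => ?_⟩
  obtain ⟨M, M1, hM⟩ := log_small (2 * Ou.KK n K + 2 * n * Ou.KK n K / ηt) C2
  refine ⟨M, M1, fun v x p hv hp pM hd hth ht y hy => ?_⟩
  have p1 : p ≤ 1 := pM.trans ((div_le_one (by linarith)).2 M1)
  have l0 : 0 ≤ Real.log (1 / p) := Real.log_nonneg ((le_div_iff₀ hp).2 (by linarith))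
  obtain ⟨L, hL⟩ : ∃ L, L = 1 + |C2| * Real.log (1 / p) := ⟨_, rfl⟩
  have hM := hM p hp pM
  rw [← hL] at hM
  obtain ⟨a, ha⟩ : ∃ a, a = √(p ^ (19 / 10 : ℝ)) := ⟨_, rfl⟩
  obtain ⟨q, hq⟩ : ∃ q, q = p ^ (9 / 10 : ℝ) := ⟨_, rfl⟩
  have q0 : 0 ≤ q := by rw [hq]; positivity
  have a2 : a ^ 2 = p * q := by
    rw [ha, Real.sq_sqrt (by positivity), hq, ← Real.rpow_one_add' hp.le (by norm_num)]; norm_num
  have pq : p ≤ q := by
    rw [hq]; nth_rw 1 [← Real.rpow_one p]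
    exact Real.rpow_le_rpow_of_exponent_ge hp p1 (by norm_num)
  have q1 : q ≤ 1 := hq ▸ Real.rpow_le_one hp.le p1 (by norm_num)
  have aq : a ≤ q := abs_le_of_sq_le_sq' (by rw [a2]; nlinarith) q0 |>.2
  rw [← hq] at hM
  obtain ⟨f1, f2⟩ := foot_core (x := x) hK hB hv (aq.trans q1)
    (show 1 ≤ L by rw [hL]; exact le_add_of_nonneg_right (by positivity))
    (by rw [hL]; nlinarith [le_abs_self C2]) fun y hy => ha ▸ Real.sqrt_le_sqrt (ht y hy)
  have g0 : 0 ≤ Ou.KK n K * L ^ 2 * q := by positivity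
  have g1 : 0 ≤ 2 * n * Ou.KK n K / ηt * L ^ 2 * q := by positivity
  have g2 : Ou.KK n K * L ^ 2 * a ≤ 1 / 2 :=
    (mul_le_mul_of_nonneg_left aq (by positivity)).trans (by linarith)
  have g3 : 2 * (n * (Ou.KK n K * L ^ 2 * a ^ 2)) ≤ Bn v x := by
    refine le_trans ?_ hth
    have e : 2 * (n * (Ou.KK n K * L ^ 2 * a ^ 2)) =
        ηt * p * (2 * n * Ou.KK n K / ηt * L ^ 2 * q) := by rw [a2]; field_simp
    rw [e]
    exact mul_le_of_le_one_right (by positivity) (by linarith)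
  have g4 := pow_le_pow_left₀ (by positivity) g3 2
  rw [Bn_sq] at g4
  have hy' : ‖y - ft v x‖ < 1 / 2 := mem_ball_iff_norm.1 hy
  have g5 := hv.abs_dd_sub_le y (ft v x)
  have g6 : tt v (ft v x) ≤ Real.exp H * tt v y := (h2 v hv y _).trans
    (mul_le_mul_of_nonneg_right (Real.exp_le_exp.2 (by nlinarith)) (hv.tt_nonneg y))
  refine ⟨by linarith [abs_sub_abs_le_abs_sub (dd v y) (dd v (ft v x))], ?_⟩
  have g7 := (h1 v hv (ft v x)).trans (mul_le_mul_of_nonneg_left g6 hQ)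
  nlinarith [hv.tt_nonneg y]

/-! ### the profile -/

theorem F_eq (D : Dat n) {y : ℝ} (hy : 0 ≤ y) : D.F y = y ^ 2 * √(y / (1 + D.f0 ^ 2 * y)) := by
  rw [Dat.F, Real.sqrt_div hy, show (5 / 2 : ℝ) = (2 : ℕ) + 1 / 2 by norm_num,
    Real.rpow_add' hy (by norm_num), Real.rpow_natCast, ← Real.sqrt_eq_rpow, mul_div_assoc]

theorem F_nonneg (D : Dat n) {y : ℝ} (hy : 0 ≤ y) : 0 ≤ D.F y := by
  rw [F_eq D hy]; positivity

theorem F_le (D : Dat n) {A y z : ℝ} (hA : 1 ≤ A) (hy : 0 ≤ y) (hz : 0 ≤ z) (h : y ≤ A * z) :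
    D.F y ≤ A ^ 3 * D.F z := by
  rw [F_eq D hy, F_eq D hz]
  have h1 : y / (1 + D.f0 ^ 2 * y) ≤ A ^ 2 * (z / (1 + D.f0 ^ 2 * z)) := by
    rw [← mul_div_assoc, div_le_div_iff₀ (by positivity) (by positivity)]
    have h2 : A * z ≤ A ^ 2 * z := mul_le_mul_of_nonneg_right (by nlinarith) hz
    have h3 : D.f0 ^ 2 * y * z ≤ A ^ 2 * (D.f0 ^ 2 * y * z) :=
      le_mul_of_one_le_left (by positivity) (by nlinarith)
    nlinarith
  have h2 := Real.sqrt_le_sqrt h1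
  rw [Real.sqrt_mul (sq_nonneg A), Real.sqrt_sq (by linarith)] at h2
  calc _ ≤ (A * z) ^ 2 * (A * √(z / (1 + D.f0 ^ 2 * z))) :=
        mul_le_mul (pow_le_pow_left₀ hy h 2) h2 (by positivity) (by positivity)
    _ = _ := by ring

theorem le_F (D : Dat n) (hf : 0 ≤ D.f0) {c y : ℝ} (hc : 0 < c) (hy : 0 ≤ y)
    (h : c ≤ D.f0 ^ 2 * y) : c * √(c / (1 + c)) * y ≤ D.f0 ^ 3 * D.F y := by
  rw [F_eq D hy]
  have h1 : c / (1 + c) ≤ D.f0 ^ 2 * (y / (1 + D.f0 ^ 2 * y)) := by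
    rw [← mul_div_assoc, div_le_div_iff₀ (by positivity) (by positivity)]
    nlinarith
  have h2 := Real.sqrt_le_sqrt h1
  rw [Real.sqrt_mul (sq_nonneg _), Real.sqrt_sq hf] at h2
  calc _ ≤ D.f0 ^ 2 * y * (D.f0 * √(y / (1 + D.f0 ^ 2 * y))) * y :=
        mul_le_mul_of_nonneg_right (mul_le_mul h h2 (by positivity) (by positivity)) hy
    _ = _ := by ring

/-! ### charging -/

theorem charge' (n : ℕ) {r0 : ℝ} (hr : 0 < r0) : ∃ A : ℝ, 0 < A ∧ ∀ (S T : Set (EE n))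
    (c g : EE n → ℝ) (a : ℝ), 0 ≤ a → MeasurableSet T → Measurable g →
    (∀ x ∈ S, ∃ y, ∀ y' ∈ ball y r0, y' ∈ T ∧ c x * (1 + ‖x - y'‖) ^ (n + 1) ≤ a * g y') →
    ∫⁻ x in S, ENNReal.ofReal (c x) ≤ ENNReal.ofReal (A * a) * ∫⁻ y in T, ENNReal.ofReal (g y) := by
  obtain ⟨A, hA, h⟩ := charge n hr
  refine ⟨A, hA, fun S T c g a ha hT hg H => (h S T c (fun y => a * g y) hT
    (hg.const_mul a) H).trans_eq ?_⟩
  simp only [ENNReal.ofReal_mul ha, ENNReal.ofReal_mul hA.le]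
  rw [lintegral_const_mul _ hg.ennreal_ofReal, mul_assoc]

/-- `ψ²` beats the weight ratio and every polynomial -/
theorem psi_W (K : ℝ) (m : ℕ) : ∃ B : ℝ, 0 ≤ B ∧ ∀ (D : Dat n) (lam C1 rs : ℝ), D.Ok K lam C1 rs →
    Sol D.v → ∀ x y, ‖x - y‖ ≤ |dd D.v x| + 1 →
      psi D.v x ^ 2 * D.W x ^ 2 * (1 + ‖x - y‖) ^ m ≤
        B * Real.exp (-|dd D.v x|) * D.W y ^ 2 := by
  obtain ⟨L, hL, h⟩ := poly_le_exp (|K| + |K| + m) (by positivity) one_pos
  refine ⟨16 * K ^ 2 * L * Real.exp 1, by positivity, fun D lam C1 rs O hv x y hxy => ?_⟩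
  have K1 := O.K1
  obtain ⟨l, hl⟩ : ∃ l, l = ‖x - y‖ := ⟨_, rfl⟩
  have l0 : 0 ≤ l := hl ▸ norm_nonneg _
  have h1 := O.Wcmp x y
  have h2 := h l l0
  rw [← hl] at h1 hxy ⊢
  rw [abs_of_nonneg (by linarith : 0 ≤ K), Real.rpow_add (by positivity),
    Real.rpow_add (by positivity), Real.rpow_natCast, one_mul] at h2
  have h3 : psi D.v x ≤ 4 * Real.exp (-|dd D.v x|) := by
    have h4 := Ou.psi_le hv x
    have h5 : Real.exp |dd D.v x| ≤ Real.exp (√2 * |dd D.v x|) := Real.exp_le_exp.2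
      (le_mul_of_one_le_left (abs_nonneg _) Real.one_lt_sqrt_two.le)
    rw [Real.exp_neg, ← div_eq_mul_inv, le_div_iff₀ (Real.exp_pos _)]
    exact (mul_le_mul_of_nonneg_left h5 (hv.psi_pos x).le).trans h4
  have h6 : Real.exp (-|dd D.v x|) * Real.exp l ≤ Real.exp 1 := by
    rw [← Real.exp_add]; exact Real.exp_le_exp.2 (by linarith)
  have w0 := O.Wpos x
  have p0 := hv.psi_pos x
  calc _ ≤ (4 * Real.exp (-|dd D.v x|)) ^ 2 * (K * (1 + l) ^ K * D.W y) ^ 2 * (1 + l) ^ m := by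
        gcongr
    _ = 16 * K ^ 2 * Real.exp (-|dd D.v x|) ^ 2 * D.W y ^ 2 *
        ((1 + l) ^ K * (1 + l) ^ K * (1 + l) ^ m) := by ring
    _ ≤ 16 * K ^ 2 * Real.exp (-|dd D.v x|) ^ 2 * D.W y ^ 2 * (L * Real.exp l) := by gcongr
    _ = 16 * K ^ 2 * L * (Real.exp (-|dd D.v x|) * Real.exp l) * Real.exp (-|dd D.v x|) *
        D.W y ^ 2 := by ring
    _ ≤ _ := by gcongr

/-- `Z` against the gain at a point with comparable `ph0` -/
theorem Z_gain (O : D.Ok K lam C1 rs) (B : D.Bas) (hx : x ∈ D.Om) (hU : 80 / D.f0 ≤ D.U x)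
    {Λ c : ℝ} (Λ1 : 1 ≤ Λ) (hΛ : ph0 D.v x ≤ Λ * ph0 D.v y) (hc : 0 < c)
    (ht : c * ph0 D.v x ^ 2 ≤ tt D.v y) :
    D.Z x ^ 2 * tt D.v y ≤ (22 ^ 4 + 1 / (c * √(c / (1 + c)))) * Λ ^ 4 * D.Gain y := by
  have f1 := O.f1
  have t0 := B.sol.tt_nonneg y
  have p0 := B.ph x
  obtain ⟨z0, z1⟩ := O.Z_mem B x
  obtain ⟨m, hm⟩ : ∃ m, m = min (D.rp x) (D.rm x) := ⟨_, rfl⟩
  have m8 : 8 ≤ m := hm ▸ le_min (B.rp8 hx) (B.rm8 hx)
  have u1 : D.U x ≤ 2 * (1 / m) := (O.U_le B hx).trans (by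
    rw [← hm]; exact mul_le_mul_of_nonneg_left (O.hpos m (by linarith)).2.1 zero_le_two)
  have m1 : 40 * m ≤ D.f0 := by
    have := hU.trans u1
    rw [mul_one_div, div_le_div_iff₀ (by linarith) (by linarith)] at this
    linarith
  have m2 : 1 / ph0 D.v x / 2 ≤ m := by
    have h1 := B.le_min hx
    rw [← hm, min_le_iff] at h1
    exact h1.resolve_left (by nlinarith [O.rm])
  rw [div_div, div_le_iff₀ (by positivity)] at m2
  have u2 : D.U x ≤ 4 * ph0 D.v x := u1.trans (by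
    rw [mul_one_div, div_le_iff₀ (by linarith)]; linarith)
  have g1 : 0 ≤ tt D.v y * D.Z y ^ 2 := by positivity
  have g2 : 0 ≤ D.Z0 ^ 2 * D.f0 ^ 3 * D.F (tt D.v y) := by
    have := F_nonneg D t0; positivity
  have g3 : 0 ≤ D.Z y ^ 2 * D.lw y ^ 2 := by positivity
  obtain ⟨c1, hc1⟩ : ∃ c1, c1 = c * √(c / (1 + c)) := ⟨_, rfl⟩
  have c0 : 0 < c1 := by rw [hc1]; positivity
  rw [← hc1, Dat.Gain]
  have key : D.Z x ≤ (22 * Λ) ^ 2 * D.Z y ∨ D.Z x ≤ Λ ^ 2 * D.Z0 := by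
    by_cases hy : y ∈ D.Om
    swap
    · refine Or.inl (z1.trans ?_)
      rw [Dat.Z, if_neg hy, mul_one]
      exact one_le_pow₀ (by linarith)
    obtain ⟨k, hk⟩ : ∃ k, k = min (D.rp y) (D.rm y) := ⟨_, rfl⟩
    have k8 : 8 ≤ k := hk ▸ le_min (B.rp8 hy) (B.rm8 hy)
    have k1 : k * ph0 D.v x ≤ 2 * Λ := by
      have h1 := B.min_le hy
      rw [← hk, mul_one_div, le_div_iff₀ (B.ph y)] at h1
      nlinarith
    rw [O.Z_eq B hx]
    rcases le_total k D.f0 with h | h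
    · refine Or.inl ?_
      have h1 := (O.hlow k (by linarith) h).1.trans (hk ▸ O.hmin_le_U B hy)
      have h2 := O.z_sq (O.U_pos B hx) (θ := (22 * Λ)⁻¹) (by positivity)
        (inv_le_one_of_one_le₀ (by linarith))
      rw [inv_pow, inv_mul_le_iff₀ (by positivity)] at h2
      rw [O.Z_eq B hy]
      refine h2.trans (mul_le_mul_of_nonneg_left (O.zmono
        (mul_nonneg (by positivity) (O.U_pos B hx).le) (O.U_pos B hy).le (le_trans ?_ h1))
        (by positivity))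
      rw [inv_mul_eq_div, div_le_div_iff₀ (by positivity) (by positivity)]
      nlinarith
    · refine Or.inr ?_
      have h2 := O.z_sq (O.U_pos B hx) (θ := Λ⁻¹) (by positivity) (inv_le_one_of_one_le₀ Λ1)
      rw [inv_pow, inv_mul_le_iff₀ (by positivity)] at h2
      refine h2.trans (mul_le_mul_of_nonneg_left (O.zmono
        (mul_nonneg (by positivity) (O.U_pos B hx).le) (mem_Ici.2 (by positivity)) ?_)
        (by positivity))
      rw [inv_mul_eq_div, div_le_div_iff₀ (by positivity) (by positivity)]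
      nlinarith
  have i0 : 0 ≤ 1 / c1 := by positivity
  have L0 : 0 ≤ Λ ^ 4 := by positivity
  rcases key with h | h
  · have h1 := mul_le_mul_of_nonneg_right (pow_le_pow_left₀ z0.le h 2) t0
    refine h1.trans (le_trans (le_of_eq (by ring) :
      _ ≤ 22 ^ 4 * Λ ^ 4 * (tt D.v y * D.Z y ^ 2)) ?_)
    exact mul_le_mul (mul_le_mul_of_nonneg_right (by linarith) L0) (by linarith) g1 (by positivity)
  · have h1 : c ≤ D.f0 ^ 2 * tt D.v y := by
      have h2 : 1 ≤ D.f0 * ph0 D.v x := by nlinarith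
      have h3 : 1 ≤ (D.f0 * ph0 D.v x) ^ 2 := one_le_pow₀ h2
      nlinarith [mul_le_mul_of_nonneg_left ht (sq_nonneg D.f0)]
    have h2 := le_F D (by linarith) hc t0 h1
    rw [← hc1, ← le_div_iff₀' c0] at h2
    have h3 := mul_le_mul (pow_le_pow_left₀ z0.le h 2) h2 t0 (by positivity)
    refine h3.trans (le_trans (le_of_eq (by ring) :
      _ ≤ 1 / c1 * Λ ^ 4 * (D.Z0 ^ 2 * D.f0 ^ 3 * D.F (tt D.v y))) ?_)
    exact mul_le_mul (mul_le_mul_of_nonneg_right (by linarith) L0) (by linarith) g2 (by positivity)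

/-- the foot lemma inside `Big` -/
theorem big_foot (fl : FLStmt n) : ∃ A : ℝ, 1 ≤ A ∧ ∀ (K lam κ0 ηt : ℝ) (β : Bo), 0 < ηt →
    Big n K lam κ0 β fun D => ∀ x ∈ D.Om, ηt * ph0 D.v x ≤ Bn D.v x →
      ∀ y ∈ ball (ft D.v x) (1 / 2), |dd D.v y| ≤ 1 ∧ hsq (dd D.v) x ≤ A * tt D.v y := by
  obtain ⟨A, A1, h⟩ := foot n
  refine ⟨A, A1, fun K lam κ0 ηt β hη => big_M fun C2 => ?_⟩
  obtain ⟨M1, m1, h1⟩ := h C2 ηt hη
  obtain ⟨M2, m2, h2⟩ := fl.tup C2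
  refine ⟨max M1 M2, fun D C1 rs _ _ e hM O x hx hth => ?_⟩
  have a1 : ph0 D.v x ≤ 1 / M1 :=
    hx.1.le.trans (one_div_le_one_div_of_le (by linarith) (le_of_max_le_left hM))
  have a2 : ph0 D.v x ≤ 1 / M2 :=
    hx.1.le.trans (one_div_le_one_div_of_le (by linarith) (le_of_max_le_right hM))
  have a3 := hx.2.1.le
  rw [e] at a3
  exact h1 D.v x _ O.pos.toPos.toSol (fl.pos _ O.pos x) a1 a3 hth fun y hy =>
    h2 D.v O.pos x y a2 a3 (hy.trans a3)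

theorem meas_band (hv : Sol v) (T : ℝ) : MeasurableSet {x | |dd v x| ≤ T} :=
  measurableSet_le hv.dd_sm.continuous.abs.measurable measurable_const

end

end Crest.Agent.N067.P

namespace Crest.Agent.N067.M

open Crest.Agent.R077 Crest.Agent.N067.V Crest.Agent.N067.Y Crest.Agent.N067.P

theorem pot {n : ℕ} (fl : FLStmt n) (x0 : X0Stmt n) : PotStmt n := by
  intro β ηt K lam κ0 hη _ _
  obtain ⟨A, A1, hf⟩ := big_foot fl
  obtain ⟨A0, hA0, hc⟩ := charge' n (r0 := 1 / 2) (by norm_num)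
  have hb := ((big_num n K lam κ0 β 0).and (big_bas fl x0 K lam κ0 β)).and (hf K lam κ0 ηt β hη)
  refine ⟨fun e he => ?_, ?_⟩
  · obtain ⟨C, hC1, hC⟩ := fl.cmp
    obtain ⟨B, B0, hB⟩ := psi_W (n := n) K (n + 1 + 8)
    obtain ⟨c, hc'⟩ : ∃ c, c = ηt ^ 2 / A := ⟨_, rfl⟩
    have c0 : 0 < c := by rw [hc']; positivity
    obtain ⟨E, hE⟩ : ∃ E, E = A * (22 ^ 4 + 1 / (c * √(c / (1 + c)))) * C ^ 4 * B := ⟨_, rfl⟩
    have E0 : 0 ≤ E := by rw [hE]; positivity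
    refine ⟨A0 * E / e, hb.mono ?_⟩
    rintro D ⟨⟨⟨-, -, -, -, C1, rs, -, -, O⟩, b⟩, hft⟩
    refine (hc _ _ _ (fun y => D.Gain y * D.W y ^ 2) (E * Real.exp (-(A0 * E / e)))
      (by positivity) (meas_band b.sol 1)
      ((O.meas_Gain b).mul (O.Wcd.continuous.measurable.pow_const 2)) ?_).trans ?_
    · rintro x ⟨hx, hT, hU, hth⟩
      refine ⟨ft D.v x, fun y hy => ⟨(hft x hx.1 hth y hy).1, ?_⟩⟩
      have h1 := (hft x hx.1 hth y hy).2
      have h2 := hB D lam C1 rs O b.sol x y ((norm_sub_ball b.sol hy).trans (by linarith))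
      have h3 := (hC D.v O.pos y x).1
      rw [norm_sub_rev] at h3
      have h4 : c * ph0 D.v x ^ 2 ≤ tt D.v y := by
        have := pow_le_pow_left₀ (mul_pos hη (b.ph x)).le hth 2
        rw [Bn_sq] at this
        rw [hc', div_mul_eq_mul_div, div_le_iff₀ (by linarith)]
        nlinarith
      have h5 := Z_gain O b hx.1 hU (one_le_mul_of_one_le_of_one_le hC1
        (one_le_pow₀ (le_add_of_nonneg_right (norm_nonneg _)))) h3 c0 h4
      have g0 : 0 ≤ D.Gain y := by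
        refine nonneg_of_mul_nonneg_right (le_trans ?_ h5) (by positivity)
        exact mul_nonneg (sq_nonneg _) (b.sol.tt_nonneg y)
      have h6 : Real.exp (-|dd D.v x|) ≤ Real.exp (-(A0 * E / e)) :=
        Real.exp_le_exp.2 (neg_le_neg hT)
      calc D.dens x * hsq (dd D.v) x * (1 + ‖x - y‖) ^ (n + 1)
          ≤ D.dens x * (A * tt D.v y) * (1 + ‖x - y‖) ^ (n + 1) := by
            have : 0 ≤ D.dens x := by unfold Dat.dens; positivity
            gcongr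
        _ = A * (D.Z x ^ 2 * tt D.v y) * (psi D.v x ^ 2 * D.W x ^ 2 * (1 + ‖x - y‖) ^ (n + 1)) := by
            unfold Dat.dens; ring
        _ ≤ A * ((22 ^ 4 + 1 / (c * √(c / (1 + c)))) * (C * (1 + ‖x - y‖) ^ 2) ^ 4 * D.Gain y) *
            (psi D.v x ^ 2 * D.W x ^ 2 * (1 + ‖x - y‖) ^ (n + 1)) := by gcongr
        _ = A * (22 ^ 4 + 1 / (c * √(c / (1 + c)))) * C ^ 4 * D.Gain y *
            (psi D.v x ^ 2 * D.W x ^ 2 * (1 + ‖x - y‖) ^ (n + 1 + 8)) := by ring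
        _ ≤ A * (22 ^ 4 + 1 / (c * √(c / (1 + c)))) * C ^ 4 * D.Gain y *
            (B * Real.exp (-(A0 * E / e)) * D.W y ^ 2) := by
            refine mul_le_mul_of_nonneg_left (h2.trans ?_) (by positivity)
            gcongr
        _ = _ := by rw [hE]; ring
    · refine mul_le_mul_left (ENNReal.ofReal_le_ofReal ?_) _
      have h1 := Real.add_one_le_exp (A0 * E / e)
      rw [Real.exp_neg, ← mul_assoc, ← div_eq_mul_inv, div_le_iff₀ (Real.exp_pos _),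
        ← div_le_iff₀' he]
      linarith
  · obtain ⟨B, B0, hB⟩ := psi_W (n := n) K (n + 1)
    refine ⟨A0 * (A ^ 3 * B), hb.mono ?_⟩
    rintro D ⟨⟨⟨-, -, -, -, C1, rs, -, -, O⟩, b⟩, hft⟩
    refine hc _ _ _ (fun y => D.F (tt D.v y) * D.W y ^ 2) _ (by positivity) (meas_band b.sol 1) ?_ ?_
    · have h1 := b.sol.tt_sm.continuous.measurable
      have h2 := O.Wcd.continuous.measurable
      unfold Dat.F
      fun_prop
    · rintro x ⟨hx, hth⟩
      refine ⟨ft D.v x, fun y hy => ⟨(hft x hx.1 hth y hy).1, ?_⟩⟩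
      have h1 := F_le D A1 (hsq_nonneg _ _) (b.sol.tt_nonneg y) (hft x hx.1 hth y hy).2
      have h2 := hB D lam C1 rs O b.sol x y ((norm_sub_ball b.sol hy).trans (by linarith))
      have h3 : Real.exp (-|dd D.v x|) ≤ 1 := Real.exp_le_one_iff.2 (neg_nonpos.2 (abs_nonneg _))
      have h4 := F_nonneg D (b.sol.tt_nonneg y)
      calc _ = D.F (hsq (dd D.v) x) * (psi D.v x ^ 2 * D.W x ^ 2 * (1 + ‖x - y‖) ^ (n + 1)) := by
            ring
        _ ≤ A ^ 3 * D.F (tt D.v y) * (B * 1 * D.W y ^ 2) :=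
            mul_le_mul h1 (h2.trans (by gcongr)) (by positivity) (by positivity)
        _ = _ := by ring

end Crest.Agent.N067.M
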