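import Crest.Agent.N067.P.Cmp0
import Crest.Agent.N067.P.Pot
import Crest.Agent.N067.M.Sheet0
import Crest.Agent.N067.M.TLow

/-! # Row 67, block P (helper53): `CmpStmt` -/

set_option autoImplicit false

open MeasureTheory Laplacian InnerProductSpace Topology Filter Set Metric
open scoped RealInnerProductSpace Gradient ContDiff ENNReal

namespace Crest.Agent.N067.P

open Crest.Agent.R077 Crest.Agent.N067.V Crest.Agent.N067.Y Crest.Agent.N067.M

noncomputable section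

variable {n : ℕ} {v : EE n → ℝ} {x y : EE n}

theorem loc_of (hv : Sol v) (hy : y ∈ ball (ft v x) 1) {D ℓ κ : ℝ} (hD : 2 * |dd v x| + 1 ≤ D)
    (hl : 0 ≤ ℓ) (hκ : 3 * κ * D ^ 2 ≤ 1 / 2)
    (h : ∀ u ∈ closedBall y (ℓ + D), ‖hb (dd v) u‖ ≤ κ ∧ tt v u ≤ κ) :
    Loc (dd v) (3 * κ * D ^ 2) D ℓ (NN v x) (NN v y) x y (nu v x) (nu v y) := by
  have a0 := abs_nonneg (dd v x)
  have D1 : 1 ≤ D := by linarith
  have xy := norm_sub_ball hv hy
  have mx : x ∈ closedBall y (ℓ + D) := mem_closedBall_iff_norm.2 (by linarith)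
  have my : y ∈ closedBall y (ℓ + D) := mem_closedBall_self (by linarith)
  have y1 : ‖y - ft v x‖ < 1 := mem_ball_iff_norm.1 hy
  have mf : ft v x ∈ closedBall y (ℓ + D) := mem_closedBall_iff_norm'.2 (by linarith)
  have tx := (h x mx).2
  have ty := (h y my).2
  have k0 : 0 ≤ κ := (hv.tt_nonneg x).trans tx
  have k1 : κ ≤ κ * D := le_mul_of_one_le_right k0 D1
  have k2 : κ * D ≤ κ * D ^ 2 := mul_le_mul_of_nonneg_left (by nlinarith) k0
  have Nx : 0 < NN v x := Wd.NN_pos (by linarith)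
  have Ny : 0 < NN v y := Wd.NN_pos (by linarith)
  have T : ∀ b ∈ closedBall y (ℓ + D), ∀ p ∈ closedBall y (ℓ + D),
      ‖nn v p - nn v b‖ ≤ κ * ‖p - b‖ ∧
        |dd v p - dd v b - ⟪nn v b, p - b⟫| ≤ κ * ‖p - b‖ ^ 2 := fun b hb p hp =>
    Wd.seg_taylor hv (fun u hu => (h u ((convex_closedBall _ _).segment_subset hb hp hu)).1)
      (right_mem_segment ℝ b p)
  have n1 : ‖nn v x - nn v y‖ ≤ κ * D :=
    (T y my x mx).1.trans (mul_le_mul_of_nonneg_left (by linarith) k0)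
  have inn : ∀ u, 0 < NN v u → ∀ p, NN v u * ⟪nu v u, p⟫ = ⟪nn v u, p⟫ := fun u hu p => by
    rw [Wd.nn_eq hu, real_inner_smul_left]
  have m1 := Wd.norm_nn_sub_nu hv Nx
  have m2 := Wd.norm_nn_sub_nu hv Ny
  refine ⟨Wd.norm_nu Nx, Wd.norm_nu Ny, by linarith [Wd.one_sub_NN hv x], NN_le_one hv x,
    by linarith [Wd.one_sub_NN hv y], NN_le_one hv y, by linarith, ?_, by linarith, ?_, ?_, ?_, ?_,
    fun z => ?_, fun z hz => ?_⟩
  · have := hv.abs_dd_sub_le y x
    rw [norm_sub_rev] at this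
    linarith [abs_sub_abs_le_abs_sub (dd v y) (dd v x)]
  · have e : nu v y - nu v x = (nn v x - nu v x) - (nn v x - nn v y) - (nn v y - nu v y) := by abel
    have h1 := norm_sub_le ((nn v x - nu v x) - (nn v x - nn v y)) (nn v y - nu v y)
    have h2 := norm_sub_le (nn v x - nu v x) (nn v x - nn v y)
    rw [e]; linarith
  · rw [← Wd.nn_eq Nx, ← Wd.nn_eq Ny]; linarith
  · have e : y - dd v y • nu v y - (x - dd v x • nu v x) =
        y - ft v x - dd v y • nu v y - dd v x • (nn v x - nu v x) := by rw [ft]; module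
    have h1 := norm_sub_le (y - ft v x - dd v y • nu v y) (dd v x • (nn v x - nu v x))
    have h2 := norm_sub_le (y - ft v x) (dd v y • nu v y)
    rw [norm_smul, Wd.norm_nu Ny, Real.norm_eq_abs, mul_one] at h2
    rw [norm_smul, Real.norm_eq_abs] at h1
    have h3 : |dd v x| * ‖nn v x - nu v x‖ ≤ D * κ :=
      mul_le_mul (by linarith) (m1.trans tx) (norm_nonneg _) (by linarith)
    have h4 := (T x mx _ mf).2
    have e2 : dd v (ft v x) - dd v x - ⟪nn v x, ft v x - x⟫ = dd v (ft v x) - dd v x * tt v x := by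
      rw [ft, sub_sub_cancel_left, inner_neg_right, real_inner_smul_right,
        real_inner_self_eq_norm_sq, M.tt_eq, NN]
      ring
    have h5 : ‖ft v x - x‖ ^ 2 ≤ D ^ 2 := pow_le_pow_left₀ (norm_nonneg _)
      (by rw [norm_sub_rev]; linarith [norm_sub_ft hv x]) 2
    have h6 : |dd v x * tt v x| ≤ D * κ := by
      rw [abs_mul, abs_of_nonneg (hv.tt_nonneg x)]
      exact mul_le_mul (by linarith) tx (hv.tt_nonneg x) (by linarith)
    have h7 := hv.abs_dd_sub_le y (ft v x)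
    rw [e2] at h4
    rw [e]
    linarith [abs_sub_abs_le_abs_sub (dd v y) (dd v (ft v x)), mul_le_mul_of_nonneg_left h5 k0,
      abs_sub_abs_le_abs_sub (dd v (ft v x)) (dd v x * tt v x)]
  · have h1 := (abs_le.1 (T y my x mx).2).2
    have h2 : ‖x - y‖ ^ 2 ≤ D ^ 2 := pow_le_pow_left₀ (norm_nonneg _) (by linarith) 2
    rw [inn y Ny]
    linarith [mul_le_mul_of_nonneg_left h2 k0]
  · linarith [(abs_le.1 (hv.abs_dd_sub_le z x)).1]
  · have mz : z ∈ closedBall y (ℓ + D) := mem_closedBall_iff_norm.2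
      ((norm_sub_le_norm_sub_add_norm_sub z x y).trans (by linarith))
    have h1 := (abs_le.1 (T x mx z mz).2).1
    rw [inn x Nx]
    linarith [mul_le_mul_of_nonneg_right (show κ ≤ 3 * κ * D ^ 2 by linarith) (sq_nonneg ‖z - x‖)]

/-- the comparison, without the valid set -/
theorem cmp_core (n : ℕ) (β : Bo) {ε : ℝ} (e0 : 0 < ε) (e1 : ε ≤ 1 / 10) : ∃ δ r0 : ℝ, 0 < δ ∧
    ∀ (v : EE n → ℝ) (ρm : ℝ) (x y : EE n), Sol v → y ∈ ball (ft v x) 1 → rt β v ρm x < ρm →
      r0 ≤ rt β v ρm x → 2 * |dd v x| + 1 ≤ δ * rt β v ρm x →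
      tt v y ≤ Real.exp (-(ε * rt β v ρm x)) → rt β v ρm y ≤ (1 + ε) * rt β v ρm x := by
  obtain ⟨H, hH, har⟩ := hk_har n
  obtain ⟨Cb, hCb, hB⟩ := Wd.exists_hb n
  obtain ⟨L, hL, hp⟩ := poly_le_exp 4 (by norm_num) (show 0 < ε / 4 by positivity)
  have η0 := β.η0
  obtain ⟨δ, δ0, δ1, δ2⟩ : ∃ δ : ℝ, 0 < δ ∧ δ ≤ ε / 100 ∧ H * ((20 / ε + 1) * δ) ≤ ε / 2 := by
    refine ⟨min (ε / 100) (ε / 2 / ((H + 1) * (20 / ε + 1))), by positivity, min_le_left _ _, ?_⟩
    have h1 := min_le_right (ε / 100) (ε / 2 / ((H + 1) * (20 / ε + 1)))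
    rw [le_div_iff₀ (by positivity)] at h1
    have : 0 ≤ (20 / ε + 1) * min (ε / 100) (ε / 2 / ((H + 1) * (20 / ε + 1))) := by positivity
    nlinarith
  refine ⟨δ, 600 * (Cb + 1) * L / (ε * β.η), δ0, fun v ρm x y hv hy hr r0 hd ht => ?_⟩
  obtain ⟨r, hr'⟩ : ∃ r, r = rt β v ρm x := ⟨_, rfl⟩
  have a0 := abs_nonneg (dd v x)
  rw [← hr'] at r0 hd ht ⊢
  have r1 : 0 < r := (mul_pos_iff_of_pos_left δ0).1 (by linarith)
  obtain ⟨R, R1, R2, R3⟩ := exists_fail hr (show 0 < ε / 4 * r by positivity)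
  have R4 := Wd.rt_le (ρm := ρm) R1 R2
  rw [← hr'] at R3 R4
  obtain ⟨E, hE⟩ : ∃ E, E = Real.exp (-(ε / 4 * r)) := ⟨_, rfl⟩
  have E0 : 0 < E := hE ▸ Real.exp_pos _
  have E1 : E ≤ 1 := hE ▸ Real.exp_le_one_iff.2 (neg_nonpos.2 (by positivity))
  have E2 : E * r ^ 4 ≤ L := by
    have h1 := hp r r1.le
    rw [show (4 : ℝ) = (4 : ℕ) by norm_num, Real.rpow_natCast] at h1
    rw [hE, Real.exp_neg, inv_mul_le_iff₀ (Real.exp_pos _), mul_comm]
    exact (pow_le_pow_left₀ r1.le (by linarith) 4).trans h1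
  have dr : δ * r ≤ r := mul_le_of_le_one_left r1.le (by linarith)
  have N : Num ε β.η (3 * ((Cb + 1) * E) * (δ * r) ^ 2) (δ * r) R ((1 + ε) * r) := by
    refine ⟨e0, e1, η0, β.η1, by positivity, by linarith, by nlinarith, ?_, ?_,
      mul_le_mul_of_nonneg_left R4 (by positivity)⟩
    · rw [div_le_iff₀ (by positivity)] at r0
      refine le_of_mul_le_mul_left (le_trans ?_ r0) r1
      have h1 : (δ * r) ^ 2 * R ≤ r ^ 2 * (2 * r) :=
        mul_le_mul (pow_le_pow_left₀ (by positivity) dr 2) (by nlinarith) (by linarith)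
          (by positivity)
      calc _ = 300 * (Cb + 1) * E * r * ((δ * r) ^ 2 * R) := by ring
        _ ≤ 300 * (Cb + 1) * E * r * (r ^ 2 * (2 * r)) := by gcongr
        _ = 600 * (Cb + 1) * (E * r ^ 4) := by ring
        _ ≤ _ := by gcongr
    · refine (mul_le_mul_of_nonneg_left R3.le (by positivity)).trans ?_
      nlinarith [mul_pos e0 r1]
  have Lc := loc_of hv hy hd (ℓ := 20 * (δ * r) / ε) (κ := (Cb + 1) * E) (by positivity)
    (by linarith [N.t1]) fun u hu => by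
      have h1 : tt v u ≤ E ^ 2 := by
        refine (har v hv y u).trans ((mul_le_mul_of_nonneg_left ht (Real.exp_pos _).le).trans ?_)
        rw [hE, ← Real.exp_nat_mul, ← Real.exp_add, Real.exp_le_exp]
        have h2 := mul_le_mul_of_nonneg_left (mem_closedBall_iff_norm'.1 hu) hH
        have h3 := mul_le_mul_of_nonneg_right δ2 r1.le
        have e : H * (20 * (δ * r) / ε + δ * r) = H * ((20 / ε + 1) * δ) * r := by ring
        push_cast
        linarith
      have h2 : √(tt v u) ≤ E := Real.sqrt_le_iff.2 ⟨E0.le, h1⟩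
      exact ⟨(hB v hv u).trans (by nlinarith), by nlinarith⟩
  simp only [Fit, not_forall, not_le] at R2
  obtain ⟨w, hw, z, hz⟩ := R2
  obtain ⟨w', hw', hz'⟩ := core β N Lc hw hz
  refine Wd.rt_le ?_ fun hf => (hf w' hw' z).not_gt hz'
  linarith [Lc.a', N.sig, N.R0, N.D1]

end

end Crest.Agent.N067.P

namespace Crest.Agent.N067.M

open Crest.Agent.R077 Crest.Agent.N067.V Crest.Agent.N067.Y Crest.Agent.N067.P

theorem cmp {n : ℕ} (x0 : X0Stmt n) : CmpStmt n := by
  intro β C2 ε hε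
  obtain ⟨δ, r0, δ0, h⟩ := cmp_core n β (lt_min hε (by norm_num : (0 : ℝ) < 1 / 10))
    (min_le_right _ _)
  obtain ⟨M0, C, m0, -, hX⟩ := x0 C2 β
  obtain ⟨M1, m1, hl⟩ := log_small (4 / δ) C2
  refine ⟨max M0 (max M1 (2 * r0)), le_max_of_le_left m0, fun v ρm hv x hx y hy _ _ => ?_⟩
  have hs : Sol v := hv.toPos.toSol
  have a0 := abs_nonneg (dd v x)
  obtain ⟨-, b1, b2, -⟩ := (hX v ρm hv).2.2 x (Val_mono (by linarith) (le_max_left _ _) hx)
  have r1 : 0 ≤ rt β v ρm x := by linarith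
  rcases le_or_gt ρm (rt β v ρm x) with hr | hr
  · refine Or.inl (le_trans (csInf_le ⟨min 0 ρm, ?_⟩ (Or.inr rfl)) (hr.trans (by nlinarith)))
    rintro s (hs | hs)
    · exact (min_le_left _ _).trans ((abs_nonneg _).trans hs.1.le)
    · exact (min_le_right _ _).trans (le_of_eq hs.symm)
  have p0 := ph0_pos hv.toPos hv.stab x
  have b3 : 1 / (2 * ph0 v x) ≤ rt β v ρm x := (min_le_iff.1 b2).resolve_left hr.not_ge
  rw [div_le_iff₀ (by positivity)] at b3
  have p1 : ph0 v x ≤ 1 / M1 := hx.1.le.trans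
    (one_div_le_one_div_of_le (by linarith) ((le_max_left _ _).trans (le_max_right _ _)))
  have p2 : 2 * r0 * ph0 v x ≤ 1 := by
    have h1 := hx.1.le
    rw [le_div_iff₀ (lt_max_of_lt_left (by linarith))] at h1
    nlinarith [(le_max_right M1 (2 * r0)).trans (le_max_right M0 _)]
  have p3 : ph0 v x ≤ 1 := p1.trans ((div_le_one (by linarith)).2 m1)
  rcases le_total (tt v y) (Real.exp (-(min ε (1 / 10) * rt β v ρm x))) with ht | ht
  · refine Or.inl ((h v ρm x y hs hy hr (le_of_mul_le_mul_right (by linarith) p0) ?_ ht).trans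
      (mul_le_mul_of_nonneg_right (by linarith [min_le_left ε (1 / 10)]) r1))
    have h1 := hl _ p0 p1
    have l0 : 0 ≤ Real.log (1 / ph0 v x) := Real.log_nonneg ((le_div_iff₀ p0).2 (by linarith))
    obtain ⟨L, hL⟩ : ∃ L, L = 1 + |C2| * Real.log (1 / ph0 v x) := ⟨_, rfl⟩
    have L1 : 1 ≤ L := by rw [hL]; exact le_add_of_nonneg_right (by positivity)
    have h2 : |dd v x| + 1 ≤ L := by rw [hL]; nlinarith [hx.2.1, le_abs_self C2]
    have h3 : ph0 v x ≤ ph0 v x ^ (9 / 10 : ℝ) := by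
      nth_rw 1 [← Real.rpow_one (ph0 v x)]
      exact Real.rpow_le_rpow_of_exponent_ge p0 p3 (by norm_num)
    rw [← hL] at h1
    have h4 : 4 / δ * L * ph0 v x ≤ 1 := le_trans (mul_le_mul (mul_le_mul_of_nonneg_left
      (by nlinarith) (by positivity)) h3 p0.le (by positivity)) h1
    rw [div_mul_eq_mul_div, div_mul_eq_mul_div, div_le_one δ0] at h4
    refine le_trans (b := 2 * L) (by linarith) (le_of_mul_le_mul_right ?_ p0)
    nlinarith
  · exact Or.inr (le_trans (Real.exp_le_exp.2 (neg_le_neg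
      (mul_le_mul_of_nonneg_right (min_le_left _ _) r1))) ht)

end Crest.Agent.N067.M
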