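import Crest.Agent.N067.M.Defs

/-!
# Row 67, block P (helper53): the geometry of `CmpStmt`

A failing paraboloid at `x` with radius `R` gives a failing paraboloid at a nearby point `y` of the
same (almost flat) sheet with radius `s ∈ [(1 + ε/2) R, (1 + ε) R]`.
-/

set_option autoImplicit false

open MeasureTheory Laplacian InnerProductSpace Topology Filter Set Metric
open scoped RealInnerProductSpace Gradient ContDiff ENNReal

namespace Crest.Agent.N067.P

open Crest.Agent.R077 Crest.Agent.N067.V Crest.Agent.N067.Y Crest.Agent.N067.M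

noncomputable section

variable {n : ℕ}

theorem gp_eq {N L y : ℝ} (hL : 0 < L) : gp N L y = N * (L / 2 - y ^ 2 / (2 * L)) := by
  unfold gp; field_simp

theorem gp_anti {N L y y' : ℝ} (hN : 0 ≤ N) (hL : 0 < L) (h0 : 0 ≤ y) (h : y ≤ y') :
    gp N L y' ≤ gp N L y := by
  rw [gp_eq hL, gp_eq hL]
  gcongr

theorem gp_le {N L y τ : ℝ} (hL : 0 < L) (h1 : N ≤ 1) (h2 : 1 - τ ≤ N) :
    gp N L y ≤ L / 2 - y ^ 2 / (2 * L) + τ * (y ^ 2 / (2 * L)) := by
  rw [gp_eq hL]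
  have : 0 ≤ y ^ 2 / (2 * L) := by positivity
  nlinarith

theorem le_gp {N L y τ : ℝ} (hL : 0 < L) (h1 : N ≤ 1) (h2 : 1 - τ ≤ N) :
    L / 2 - y ^ 2 / (2 * L) - τ * (L / 2) ≤ gp N L y := by
  rw [gp_eq hL]
  have : 0 ≤ y ^ 2 / (2 * L) := by positivity
  nlinarith

/-- the ball paraboloid -/
theorem gp_ball {N L : ℝ} (hL : 0 < L) {ν : EE n} (hν : ‖ν‖ = 1) (q : EE n) :
    gp N L ‖q - L • ν‖ = N * ⟪ν, q⟫ - N * (‖q‖ ^ 2 / (2 * L)) := by
  rw [gp, norm_sub_sq_real, norm_smul, hν, inner_smul_right, real_inner_comm, Real.norm_eq_abs,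
    mul_one, sq_abs]
  field_simp
  ring

/-- the numbers of the comparison -/
structure Num (ε η τ D R s : ℝ) : Prop where
  e0 : 0 < ε
  e1 : ε ≤ 1 / 10
  h0 : 0 < η
  h1 : η ≤ 1 / 100
  t0 : 0 ≤ τ
  D1 : 1 ≤ D
  DR : 100 * D ≤ ε * R
  tR : 100 * (τ * R) ≤ ε * η
  lo : (1 + ε / 2) * R ≤ s
  hi : s ≤ (1 + ε) * R

namespace Num

variable {ε η τ D R s : ℝ} (h : Num ε η τ D R s)
include h

theorem R0 : 0 < R := by
  have := h.DR; have := h.D1; have := h.e0
  by_contra hc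
  nlinarith

theorem DR' : 1000 * D ≤ R := by
  have := h.DR; have := h.e1; have := h.R0; nlinarith

theorem sig : 50 * D ≤ s - R := by
  have := h.DR; have := h.lo; nlinarith

theorem sig' : s - R ≤ R / 10 := by
  have := h.hi; have := h.e1; have := h.R0; nlinarith

theorem tR' : τ * R ≤ 1 / 100000 := by
  have := h.tR; have := h.e1; have := h.h1; have := h.e0; have := h.h0; nlinarith

theorem t1 : τ ≤ 1 / 100000 := by
  have := h.tR'; have := h.DR'; have := h.D1; have := h.t0; nlinarith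

/-- long chords -/
theorem far {a a' N N' Y Y1 y' : ℝ} (ha : |a| ≤ D) (ha' : |a'| ≤ D) (hN : 1 - τ ≤ N) (hN1 : N ≤ 1)
    (hN' : 1 - τ ≤ N') (hN1' : N' ≤ 1) (hY : 0 ≤ Y) (hY' : Y ≤ 20 * R) (hY1 : 0 ≤ Y1)
    (h1 : Y1 ^ 2 ≤ Y ^ 2 + 2 * (s - R) * (η * s + 5)) (h2 : Y1 ≤ Y + (s - R)) (y0 : 0 ≤ y')
    (h3 : y' ≤ Y1 + 4 + η * s) :
    a + gp N (R - a) (Y + η * R) ≤ a' + gp N' (s - a') y' := by
  obtain ⟨σ, hσ⟩ : ∃ σ, σ = s - R := ⟨_, rfl⟩
  obtain rfl : s = R + σ := by linarith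
  have hR := h.R0; have hD := h.DR'; have s1 := h.sig; have s2 := h.sig'; have tR := h.tR'
  have D1 := h.D1; have η0 := h.h0; have η1 := h.h1; have τ0 := h.t0
  rw [add_sub_cancel_left] at s1 s2 h1 h2
  obtain ⟨a1, a2⟩ := abs_le.1 ha
  obtain ⟨b1, b2⟩ := abs_le.1 ha'
  obtain ⟨L, hL⟩ : ∃ L, L = R - a := ⟨_, rfl⟩
  obtain ⟨L', hL'⟩ : ∃ L', L' = R + σ - a' := ⟨_, rfl⟩
  rw [← hL, ← hL']
  have L0 : R / 2 ≤ L := by linarith
  have L1 : R ≤ L' := by linarith
  have L2 : L' ≤ 2 * R := by linarith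
  have L3 : 24 / 25 * σ ≤ L' - L := by linarith
  have Lp : 0 < L := by linarith
  have Lp' : 0 < L' := by linarith
  obtain ⟨m, hm⟩ : ∃ m, m = η * σ + 4 := ⟨_, rfl⟩
  have σ0 : 0 < σ := by linarith
  have m0 : 0 ≤ m := by rw [hm]; positivity
  have m1 : m ≤ 9 / 100 * σ := by
    linarith only [hm, mul_le_mul_of_nonneg_right η1 σ0.le, s1, D1]
  obtain ⟨b, hb⟩ : ∃ b, b = η * R := ⟨_, rfl⟩
  have b0 : 0 ≤ b := by rw [hb]; positivity
  have b3 : b ≤ R / 100 := by linarith only [hb, mul_le_mul_of_nonneg_right η1 hR.le]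
  rw [← hb]
  have h4 : y' ≤ Y1 + (b + m) := by rw [hb, hm]; linarith
  have k1 : 2 * σ * (η * (R + σ) + 5) ≤ 4 / 100 * (σ * R) := by
    have e1 : η * (R + σ) ≤ 1 / 100 * (R + σ) := mul_le_mul_of_nonneg_right η1 (by positivity)
    have e2 : σ * (η * (R + σ) + 5) ≤ σ * (2 / 100 * R) :=
      mul_le_mul_of_nonneg_left (by linarith) σ0.le
    linarith only [e2]
  have h5 : y' ^ 2 ≤ (Y + b) ^ 2 + 2 * Y * m + 1 / 10 * (σ * R) := by
    have e1 : y' ^ 2 ≤ (Y1 + (b + m)) ^ 2 := pow_le_pow_left₀ y0 h4 2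
    have e2 : Y1 * (b + m) ≤ (Y + σ) * (b + m) := mul_le_mul_of_nonneg_right h2 (by positivity)
    have e3 : σ * (b + m) ≤ σ * (19 / 1000 * R) := mul_le_mul_of_nonneg_left (by linarith) σ0.le
    have e4 : b * m ≤ R / 100 * (9 / 100 * σ) := mul_le_mul b3 m1 m0 (by positivity)
    have e5 : m * m ≤ 9 / 100 * σ * (9 / 1000 * R) := mul_le_mul m1 (by linarith) m0 (by positivity)
    have e6 : 0 ≤ σ * R := by positivity
    linarith only [e1, e2, e3, e4, e5, e6, h1, k1]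
  have h6 : 2 * Y * m * L ≤ (Y + b) ^ 2 * (L' - L) + 1 / 100 * σ * (L * L') := by
    have e1 : Y ^ 2 * (24 / 25 * σ) ≤ (Y + b) ^ 2 * (L' - L) :=
      mul_le_mul (pow_le_pow_left₀ hY (by linarith) 2) L3 (by positivity) (by positivity)
    have e2 : 2 * Y * m * L ≤ 2 * Y * (9 / 100 * σ) * L := by gcongr
    have e3 : L * L ≤ L * L' := mul_le_mul_of_nonneg_left (by linarith) Lp.le
    have e4 : 0 ≤ σ * (24 / 25 * Y ^ 2 - 18 / 100 * Y * L + 1 / 100 * L ^ 2) :=
      mul_nonneg σ0.le (by nlinarith only [sq_nonneg (Y - L / 10), sq_nonneg Y, sq_nonneg L])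
    have e5 := mul_le_mul_of_nonneg_left e3 σ0.le
    linarith only [e1, e2, e4, e5]
  have h7 : y' ^ 2 / (2 * L') ≤ (Y + b) ^ 2 / (2 * L) + σ / 10 := by
    rw [div_add' _ _ _ (by positivity), div_le_div_iff₀ (by positivity) (by positivity)]
    have e1 : y' ^ 2 * L ≤ ((Y + b) ^ 2 + 2 * Y * m + 1 / 10 * (σ * R)) * L :=
      mul_le_mul_of_nonneg_right h5 Lp.le
    have e2 : σ * R * L ≤ σ * L' * L := by gcongr
    have e3 : 0 ≤ σ * (L * L') := by positivity
    linarith only [e1, e2, e3, h6]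
  have h8 : τ * ((Y + b) ^ 2 / (2 * L)) ≤ 1 := by
    have e1 : (Y + b) ^ 2 / (2 * L) ≤ 441 * R := by
      rw [div_le_iff₀ (by positivity)]
      have e2 : (Y + b) ^ 2 ≤ (21 * R) ^ 2 := pow_le_pow_left₀ (by positivity) (by linarith) 2
      have e3 := mul_le_mul_of_nonneg_left L0 hR.le
      linarith only [e2, e3]
    have e4 := mul_le_mul_of_nonneg_left e1 τ0
    linarith only [e4, tR]
  have h9 : τ * (L' / 2) ≤ 1 := by linarith only [mul_le_mul_of_nonneg_left L2 τ0, tR]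
  have g1 := gp_le (y := Y + b) Lp hN1 hN
  have g2 := le_gp (y := y') Lp' hN1' hN'
  linarith

/-- chords in the lower half space -/
theorem near {a a' N N' Q Q' : ℝ} (ha : |a| ≤ D) (ha' : |a'| ≤ D) (hN : 1 - τ ≤ N)
    (hN1' : N' ≤ 1) (hQ : 20 * D ≤ ε * Q) (Q0 : 0 ≤ Q') (hQ' : Q' ≤ Q + D) :
    τ + τ * Q + N' * (Q' ^ 2 / (2 * (s - a'))) ≤ N * (Q ^ 2 / (2 * (R - a))) := by
  have hR := h.R0; have hD := h.DR'; have tR := h.tR; have DR := h.DR
  have D1 := h.D1; have η0 := h.h0; have η1 := h.h1; have τ0 := h.t0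
  have e0 := h.e0; have e1 := h.e1; have lo := h.lo
  obtain ⟨a1, a2⟩ := abs_le.1 ha
  obtain ⟨b1, b2⟩ := abs_le.1 ha'
  obtain ⟨L, hL⟩ : ∃ L, L = R - a := ⟨_, rfl⟩
  obtain ⟨L', hL'⟩ : ∃ L', L' = s - a' := ⟨_, rfl⟩
  rw [← hL, ← hL']
  have Lp : 0 < L := by linarith
  have L1 : L ≤ (1 + ε / 100) * R := by linarith
  have L2 : (1 + 49 / 100 * ε) * R ≤ L' := by linarith
  have L3 : (1 + 2 / 5 * ε) * L ≤ L' := by
    refine (mul_le_mul_of_nonneg_left L1 (by positivity)).trans (le_trans ?_ L2)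
    rw [← mul_assoc]
    exact mul_le_mul_of_nonneg_right (by nlinarith) hR.le
  have Q1 : 1 ≤ Q := by
    by_contra hc
    nlinarith
  have Q2 : Q' ^ 2 ≤ (1 + 11 / 100 * ε) * Q ^ 2 := by
    have : Q' ≤ (1 + ε / 20) * Q := by linarith
    refine (pow_le_pow_left₀ Q0 this 2).trans ?_
    rw [mul_pow]
    exact mul_le_mul_of_nonneg_right (by nlinarith) (by positivity)
  obtain ⟨X, hX⟩ : ∃ X, X = Q ^ 2 / (2 * L) := ⟨_, rfl⟩
  have X0 : 0 ≤ X := by rw [hX]; positivity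
  have eX : Q ^ 2 = 2 * L * X := by rw [hX]; field_simp
  have Lp' : 0 < L' := lt_of_lt_of_le (by positivity) L3
  have h1 : Q' ^ 2 / (2 * L') ≤ (1 - ε / 5) * X := by
    rw [div_le_iff₀ (by positivity)]
    have e2 : (1 - ε / 5) * X * (2 * ((1 + 2 / 5 * ε) * L)) ≤ (1 - ε / 5) * X * (2 * L') :=
      mul_le_mul_of_nonneg_left (by linarith) (mul_nonneg (by linarith) X0)
    have e3 : (1 + 11 / 100 * ε) * (L * X) ≤ (1 - ε / 5) * (1 + 2 / 5 * ε) * (L * X) :=
      mul_le_mul_of_nonneg_right (by nlinarith) (by positivity)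
    rw [eX] at Q2
    nlinarith
  have h2 : N' * (Q' ^ 2 / (2 * L')) ≤ Q' ^ 2 / (2 * L') :=
    mul_le_of_le_one_left (by positivity) hN1'
  have h3 : τ + τ * Q ≤ 2 * τ * Q ^ 2 := by nlinarith [mul_nonneg τ0 (sub_nonneg.2 Q1)]
  have h4 : τ * (1 + 4 * L) ≤ ε / 5 := by
    have : τ * (1 + 4 * L) ≤ τ * (9 * R) := mul_le_mul_of_nonneg_left (by nlinarith) τ0
    nlinarith
  have h5 : τ * (1 + 4 * L) * X ≤ ε / 5 * X := mul_le_mul_of_nonneg_right h4 X0
  have h6 : (1 - τ) * X ≤ N * X := mul_le_mul_of_nonneg_right hN X0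
  rw [← hX]
  rw [eX] at h3
  nlinarith

end Num

theorem mem_core_of (β : Bo) {ν w : EE n} (hν : ‖ν‖ = 1) (h1 : ‖w‖ ≤ β.η) (h2 : ⟪w, ν⟫ ≤ 0) :
    w ∈ Core β ν := by
  refine ⟨h1, ?_⟩
  have := β.η0; have := β.η1; have := β.h0; have := β.h1
  refine abs_le_of_sq_le_sq' ?_ (by linarith) |>.2
  rw [norm_add_sq_real, inner_smul_right, norm_smul, hν]
  have h3 : ‖w‖ ^ 2 ≤ β.η ^ 2 := pow_le_pow_left₀ (norm_nonneg _) h1 2
  simp only [Real.norm_ofNat, mul_one]
  nlinarith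

/-- the local data at the two points -/
structure Loc (d : EE n → ℝ) (τ D ℓ N N' : ℝ) (x y ν ν' : EE n) : Prop where
  u : ‖ν‖ = 1
  u' : ‖ν'‖ = 1
  N0 : 1 - τ ≤ N
  N1 : N ≤ 1
  N0' : 1 - τ ≤ N'
  N1' : N' ≤ 1
  a : |d x| ≤ D
  a' : |d y| ≤ D
  xy : ‖x - y‖ ≤ D
  nu : ‖ν' - ν‖ ≤ τ
  nn : ‖N • ν - N' • ν'‖ ≤ τ
  bs : ‖(y - d y • ν') - (x - d x • ν)‖ ≤ 3
  aff : d x - d y - N' * ⟪ν', x - y⟫ ≤ τ
  lip : ∀ z, d x - ‖z - x‖ ≤ d z
  short : ∀ z, ‖z - x‖ ≤ ℓ → d x + N * ⟪ν, z - x⟫ - τ * ‖z - x‖ ^ 2 ≤ d z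

set_option maxHeartbeats 1000000 in
theorem core (β : Bo) {d : EE n → ℝ} {ε τ D R s N N' : ℝ} {x y ν ν' w z : EE n}
    (h : Num ε β.η τ D R s) (H : Loc d τ D (20 * D / ε) N N' x y ν ν') (hw : w ∈ Core β ν)
    (hz : d z < d x + gp N (R - d x) (‖z - (x + (R - d x) • ν + R • w)‖ + β.η * R)) :
    ∃ w' ∈ Core β ν',
      d z < d y + gp N' (s - d y) (‖z - (y + (s - d y) • ν' + s • w')‖ + β.η * s) := by
  have hR := h.R0; have hD := h.DR'; have s1 := h.sig; have s2 := h.sig'; have tR := h.tR'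
  have D1 := h.D1; have η0 := h.h0; have η1 := h.h1; have τ0 := h.t0; have t1 := h.t1
  have e0 := h.e0; have N0 := H.N0; have N1 := H.N1
  obtain ⟨a1, a2⟩ := abs_le.1 H.a
  obtain ⟨b1, b2⟩ := abs_le.1 H.a'
  have Lp : 0 < R - d x := by linarith
  have Lp' : 0 < s - d y := by linarith
  have s0 : 0 < s := by linarith
  have Rw : ‖R • w‖ ≤ β.η * R := by
    rw [norm_smul, Real.norm_of_nonneg hR.le, mul_comm]
    exact mul_le_mul_of_nonneg_right hw.1 hR.le
  -- the ball paraboloid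
  have hb : d z < d x + (N * ⟪ν, z - x⟫ - N * (‖z - x‖ ^ 2 / (2 * (R - d x)))) := by
    rw [← gp_ball Lp H.u]
    refine hz.trans_le (add_le_add le_rfl (gp_anti (by linarith) Lp (norm_nonneg _) ?_))
    have e : z - x - (R - d x) • ν = z - (x + (R - d x) • ν + R • w) + R • w := by abel
    rw [e]
    exact (norm_add_le _ _).trans (add_le_add le_rfl Rw)
  obtain ⟨Q, hQ⟩ : ∃ Q, Q = ‖z - x‖ := ⟨_, rfl⟩
  have Q0 : 0 ≤ Q := hQ ▸ norm_nonneg _
  obtain ⟨X, hX⟩ : ∃ X, X = Q ^ 2 / (2 * (R - d x)) := ⟨_, rfl⟩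
  have X0 : 0 ≤ X := by rw [hX]; positivity
  have eX : Q ^ 2 = 2 * (R - d x) * X := by rw [hX]; field_simp
  rw [← hQ, ← hX] at hb
  have hin : ⟪ν, z - x⟫ ≤ Q := by
    simpa [H.u, hQ] using real_inner_le_norm ν (z - x)
  have hQ1 : Q ≤ 16 * R := by
    have h1 := H.lip z
    rw [← hQ] at h1
    have h2 : N * ⟪ν, z - x⟫ ≤ Q := (mul_le_mul_of_nonneg_left hin (by linarith)).trans
      (mul_le_of_le_one_left Q0 N1)
    have h3 : X ≤ 4 * Q := by nlinarith
    by_contra hc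
    have h4 : 2 * (R - d x) * X ≤ 4 * R * (4 * Q) :=
      mul_le_mul (by linarith) h3 X0 (by positivity)
    nlinarith
  have hQ2 : 20 * D ≤ ε * Q := by
    by_contra hc
    have h1 := H.short z (by rw [← hQ, le_div_iff₀ e0]; linarith)
    rw [← hQ, eX] at h1
    have h2 : τ * (2 * (R - d x)) ≤ N := by nlinarith
    nlinarith [mul_le_mul_of_nonneg_right h2 X0]
  obtain ⟨Y, hY⟩ : ∃ Y, Y = ‖z - (x + (R - d x) • ν + R • w)‖ := ⟨_, rfl⟩
  have Y0 : 0 ≤ Y := hY ▸ norm_nonneg _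
  have Y1 : Y ≤ 20 * R := by
    have e : z - (x + (R - d x) • ν + R • w) = z - x - (R - d x) • ν - R • w := by abel
    have h1 := norm_sub_le (z - x - (R - d x) • ν) (R • w)
    have h2 := norm_sub_le (z - x) ((R - d x) • ν)
    rw [norm_smul, H.u, Real.norm_of_nonneg Lp.le] at h2
    rw [hY, e]
    nlinarith
  obtain ⟨c, hc⟩ : ∃ c, c = z - (y + (s - d y) • ν') := ⟨_, rfl⟩
  have ec : ∀ w', z - (y + (s - d y) • ν' + s • w') = c - s • w' := fun w' => by rw [hc]; abel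
  simp only [ec]
  rw [← hY] at hz
  rcases le_or_gt ⟪c, ν'⟫ 0 with h1 | h1
  · rcases le_or_gt (β.η * s) ‖c‖ with h2 | h2
    · have c0 : 0 < ‖c‖ := lt_of_lt_of_le (by positivity) h2
      refine ⟨(β.η / ‖c‖) • c, mem_core_of β H.u' ?_ ?_, ?_⟩
      · rw [norm_smul, Real.norm_of_nonneg (by positivity), div_mul_cancel₀ _ c0.ne']
      · rw [inner_smul_left]
        exact mul_nonpos_of_nonneg_of_nonpos (by simp only [conj_trivial]; positivity) h1
      · have e1 : ‖c - s • (β.η / ‖c‖) • c‖ + β.η * s = ‖c‖ := by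
          have e2 : c - s • (β.η / ‖c‖) • c = (1 - s * (β.η / ‖c‖)) • c := by
            rw [sub_smul, one_smul, smul_smul]
          have e3 : 0 ≤ 1 - s * (β.η / ‖c‖) := by
            rw [sub_nonneg, ← mul_div_assoc, div_le_one c0]; linarith
          rw [e2, norm_smul, Real.norm_of_nonneg e3]
          field_simp
          ring
        have e4 : c = z - y - (s - d y) • ν' := by rw [hc]; abel
        rw [e1, e4, gp_ball Lp' H.u']
        have h3 : ‖z - y‖ ≤ Q + D := by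
          have e : z - y = z - x + (x - y) := by abel
          rw [e, hQ]
          exact (norm_add_le _ _).trans (add_le_add le_rfl H.xy)
        have h4 := h.near H.a H.a' N0 H.N1' hQ2 (norm_nonneg _) h3
        have h5 : N * ⟪ν, z - x⟫ - N' * ⟪ν', z - x⟫ ≤ τ * Q := by
          have := real_inner_le_norm (N • ν - N' • ν') (z - x)
          rw [inner_sub_left, real_inner_smul_left, real_inner_smul_left, ← hQ] at this
          exact this.trans (mul_le_mul_of_nonneg_right H.nn Q0)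
        have h6 : ⟪ν', z - y⟫ = ⟪ν', z - x⟫ + ⟪ν', x - y⟫ := by
          rw [← inner_add_right]; congr 1; abel
        have h7 := H.aff
        rw [← hX] at h4
        rw [h6]
        linarith
    · refine ⟨s⁻¹ • c, mem_core_of β H.u' ?_ ?_, ?_⟩
      · rw [norm_smul, norm_inv, Real.norm_of_nonneg s0.le, inv_mul_le_iff₀ s0]; linarith
      · rw [inner_smul_left]
        exact mul_nonpos_of_nonneg_of_nonpos (by simp only [conj_trivial]; positivity) h1
      · rw [smul_smul, mul_inv_cancel₀ s0.ne', one_smul, sub_self, norm_zero, zero_add]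
        refine hz.trans_le (h.far (Y1 := 0) H.a H.a' N0 N1 H.N0' H.N1' Y0 Y1 le_rfl ?_ (by linarith)
          (by positivity) (by linarith))
        have : 0 ≤ 2 * (s - R) * (β.η * s + 5) := mul_nonneg (by linarith) (by positivity)
        nlinarith
  · obtain ⟨θ, hθ⟩ : ∃ θ, θ = R / s := ⟨_, rfl⟩
    have θ0 : 0 ≤ θ := by rw [hθ]; positivity
    have eθ : s * θ = R := by rw [hθ]; field_simp
    have θ1 : ε / 3 ≤ 1 - θ := by
      have h2 : ε / 3 * s ≤ (1 - θ) * s := by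
        have := h.lo; have := h.e1; nlinarith
      exact le_of_mul_le_mul_right h2 s0
    have θ2 : 0 ≤ 1 - θ := by linarith
    have w1 : ‖θ • w - ((1 - θ) * β.η) • ν‖ ≤ β.η := by
      refine (norm_sub_le _ _).trans ?_
      rw [norm_smul, norm_smul, H.u, Real.norm_of_nonneg θ0, Real.norm_of_nonneg (by positivity)]
      nlinarith [mul_le_mul_of_nonneg_left hw.1 θ0]
    refine ⟨θ • w - ((1 - θ) * β.η) • ν, ⟨w1, ?_⟩, ?_⟩
    · have e : θ • w - ((1 - θ) * β.η) • ν + (3 : ℝ) • ν' = θ • (w + (3 : ℝ) • ν) +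
          ((1 - θ) * (3 - β.η)) • ν + (3 : ℝ) • (ν' - ν) := by module
      rw [e]
      refine (norm_add₃_le).trans ?_
      rw [norm_smul, norm_smul, norm_smul, H.u, Real.norm_of_nonneg θ0,
        Real.norm_of_nonneg (mul_nonneg θ2 (by linarith)), Real.norm_ofNat]
      have h2 := mul_le_mul_of_nonneg_left hw.2 θ0
      have h3 := H.nu
      have h4 : ε / 3 * β.η ≤ (1 - θ) * (2 * β.η - β.h) :=
        mul_le_mul θ1 (by linarith [β.h1]) η0.le θ2
      have h5 := h.tR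
      nlinarith
    · obtain ⟨p, hp⟩ : ∃ p, p = z - (x + (R - d x) • ν + R • w) := ⟨_, rfl⟩
      obtain ⟨er, her⟩ : ∃ er, er = (y - d y • ν') - (x - d x • ν) + s • (ν' - ν) := ⟨_, rfl⟩
      obtain ⟨k, hk⟩ : ∃ k, k = (s - R) * (1 - β.η) := ⟨_, rfl⟩
      have k0 : 0 ≤ k := by rw [hk]; exact mul_nonneg (by linarith) (by linarith)
      have k1 : k ≤ s - R := by rw [hk]; nlinarith
      have er1 : ‖er‖ ≤ 4 := by
        rw [her]
        refine (norm_add_le _ _).trans ?_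
        rw [norm_smul, Real.norm_of_nonneg s0.le]
        nlinarith [H.bs, mul_le_mul_of_nonneg_left H.nu s0.le]
      have e1 : c - s • (θ • w - ((1 - θ) * β.η) • ν) = p - k • ν - er := by
        rw [hc, hp, her, hk, ← eθ]; module
      have c1 : ‖c‖ ≤ 20 * R := by
        have e : c = z - x + (x - y) - (s - d y) • ν' := by rw [hc]; abel
        have h2 := norm_sub_le (z - x + (x - y)) ((s - d y) • ν')
        have h3 := norm_add_le (z - x) (x - y)
        rw [norm_smul, H.u', Real.norm_of_nonneg Lp'.le, ← e] at h2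
        linarith [H.xy]
      have hu : k - (β.η * s + 5) ≤ ⟪p, ν⟫ := by
        have e2 : p = c - s • (θ • w - ((1 - θ) * β.η) • ν) + k • ν + er := by rw [e1]; abel
        have h2 : ⟪c, ν' - ν⟫ ≤ 20 * R * τ :=
          (real_inner_le_norm _ _).trans (mul_le_mul c1 H.nu (norm_nonneg _) (by positivity))
        have h3 : ⟪s • (θ • w - ((1 - θ) * β.η) • ν), ν⟫ ≤ s * β.η := by
          refine (real_inner_le_norm _ _).trans ?_
          rw [norm_smul, H.u, Real.norm_of_nonneg s0.le, mul_one]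
          exact mul_le_mul_of_nonneg_left w1 s0.le
        have h4 : -4 ≤ ⟪er, ν⟫ := by
          have := abs_real_inner_le_norm er ν
          rw [H.u, mul_one] at this
          linarith [neg_abs_le ⟪er, ν⟫]
        have h5 : ⟪k • ν, ν⟫ = k := by
          rw [real_inner_smul_left, real_inner_self_eq_norm_sq, H.u]; ring
        rw [inner_sub_right] at h2
        rw [e2, inner_add_left, inner_add_left, inner_sub_left, h5]
        linarith
      rw [← hp] at hY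
      rw [e1]
      refine hz.trans_le (h.far (Y1 := ‖p - k • ν‖) H.a H.a' N0 N1 H.N0' H.N1' Y0 Y1 (norm_nonneg _)
        ?_ ?_ (by positivity) (by linarith [norm_sub_le (p - k • ν) er]))
      · rw [norm_sub_sq_real, real_inner_smul_right, norm_smul, H.u, Real.norm_of_nonneg k0, ← hY]
        have h2 : k * (β.η * s + 5) ≤ (s - R) * (β.η * s + 5) :=
          mul_le_mul_of_nonneg_right k1 (by positivity)
        have h3 := mul_le_mul_of_nonneg_left hu k0
        have h4 := sq_nonneg k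
        linarith only [h2, h3, h4]
      · refine (norm_sub_le _ _).trans ?_
        rw [norm_smul, H.u, Real.norm_of_nonneg k0, ← hY]
        linarith

end

end Crest.Agent.N067.P
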